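import Vale.Agent.P151.Final

namespace Vale.Agent.Results.P151.A_main

open Vale.Agent.P151

theorem result :
    (∀ d : ℕ, 2 ≤ d →
      pc (zd d) < 1 ∧ perc (zd d) (pc (zd d)) (infCluster (Fin d → ℤ)) = 0) ∧
    (∀ (V : Type) (G : SimpleGraph V) [G.LocallyFinite], G.Connected →
      ∀ Γ : Subgroup (G ≃g G), (∃ S : Finset V, ∀ x, ∃ g ∈ Γ, ∃ s ∈ S, g s = x) →
      ∀ f : V → ℝ × ℝ, (∀ g ∈ Γ, ∀ x y, f (g x) - f x = f (g y) - f y) →
      (∃ g ∈ Γ, ∃ h ∈ Γ, ∃ x,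
        (f (g x) - f x).1 * (f (h x) - f x).2 ≠ (f (g x) - f x).2 * (f (h x) - f x).1) →
      pc G < 1 → perc G (pc G) (infCluster V) = 0) ∧
    (∀ (Γ : Type) [Group Γ] (S : Finset Γ), Subgroup.closure (S : Set Γ) = ⊤ →
      ∀ (H : Subgroup Γ) [H.FiniteIndex] (φ : H →* Multiplicative (ℤ × ℤ)),
      Function.Surjective φ → pc (SimpleGraph.mulCayley (S : Set Γ)) < 1 →
      perc (SimpleGraph.mulCayley (S : Set Γ)) (pc (SimpleGraph.mulCayley (S : Set Γ)))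
        (infCluster Γ) = 0) :=
  ⟨final_zd, fun _ G _ hc Γ hΓ f hf hr hp => final_general G hc Γ hΓ f hf hr hp,
    fun _ _ S hS H _ φ hφ => final_cayley S hS H φ hφ⟩

end Vale.Agent.Results.P151.A_main
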